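import Vale.Agent.P057.Seq

/-!
A set of size about `R^(1-c)` in `[0, R)` without non-constant polynomial sequences of length `k`
and degree `≤ e`, when some prime lies in `[e+2, k]`: random deletion, with a count of such
sequences by the number of distinct values.
-/

namespace Vale.Agent.P057

open Finset Polynomial

/-- A `0/1` polynomial sequence of degree `≤ e` on `k` points is constant when `[e+2, k]` contains
a prime `q`: modulo `q` its first `q` values sum to zero. -/
lemma zero_one_const {k e q : ℕ} (hq : q.Prime) (h1 : e + 2 ≤ q) (h2 : q ≤ k) {a : ℕ → ℤ}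
    (ha : ∀ j < k, a j = 0 ∨ a j = 1) (h : IsPolySeq k e a) : ∀ j < k, a j = a 0 := by
  classical
  have := Fact.mk hq
  obtain ⟨P, hd, hP⟩ := h
  have hZ : ∑ i ∈ range q, (-1 : ℤ) ^ (q - 1 - i) * ((q - 1).choose i : ℤ) * a i = 0 := by
    have h0 := eval_alt_sum (P := P) (m := q - 1) (by omega) 0
    rw [show q - 1 + 1 = q by omega] at h0
    have : ((∑ i ∈ range q, (-1 : ℤ) ^ (q - 1 - i) * ((q - 1).choose i : ℤ) * a i : ℤ) : ℚ) = 0 := by
      push_cast
      rw [← h0]
      refine sum_congr rfl fun i hi => ?_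
      rw [zero_add, hP i (by have := mem_range.1 hi; omega)]
    exact_mod_cast this
  have hc : ∀ i, i ≤ q - 1 → (((q - 1).choose i : ℕ) : ZMod q) = (-1) ^ i := by
    intro i
    induction i with
    | zero => simp
    | succ i ih =>
      intro hi
      have h3 := Nat.choose_succ_succ (q - 1) i
      rw [show (q - 1).succ = q by omega] at h3
      have h4 : q ∣ q.choose (i + 1) := hq.dvd_choose_self (by omega) (by omega)
      have h5 := (ZMod.natCast_eq_zero_iff (q.choose (i + 1)) q).2 h4
      rw [show q.choose (i + 1) = q.choose i.succ from rfl, h3, Nat.cast_add, ih (by omega)] at h5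
      rw [show i + 1 = i.succ from rfl, eq_neg_of_add_eq_zero_right h5, Nat.succ_eq_add_one, pow_succ]
      ring
  have hmod : (((∑ i ∈ range q, a i : ℤ)) : ZMod q) = 0 := by
    have h0 := congrArg (fun z : ℤ => (z : ZMod q)) hZ
    simp only [Int.cast_zero] at h0
    push_cast at h0 ⊢
    have : ∀ i ∈ range q, (-1 : ZMod q) ^ (q - 1 - i) * (((q - 1).choose i : ℕ) : ZMod q) *
        (a i : ZMod q) = (-1) ^ (q - 1) * (a i : ZMod q) := by
      intro i hi
      have hi' : i ≤ q - 1 := by have := mem_range.1 hi; omega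
      rw [hc i hi', ← pow_add, Nat.sub_add_cancel hi']
    rw [sum_congr rfl this, ← mul_sum] at h0
    rcases mul_eq_zero.1 h0 with h | h
    · exact absurd h (pow_ne_zero _ (by norm_num))
    · exact h
  have hdvd := (ZMod.intCast_zmod_eq_zero_iff_dvd _ q).1 hmod
  have hb : ∀ i ∈ range q, 0 ≤ a i ∧ a i ≤ 1 := fun i hi => by
    rcases ha i (by have := mem_range.1 hi; omega) with h | h <;> omega
  have hall : ∃ c : ℤ, ∀ i < q, a i = c := by
    by_cases h0 : (∑ i ∈ range q, a i) = 0
    · exact ⟨0, fun i hi =>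
        (sum_eq_zero_iff_of_nonneg (fun i hi => (hb i hi).1)).1 h0 i (mem_range.2 hi)⟩
    · refine ⟨1, fun i hi => ?_⟩
      have hpos : 0 < ∑ i ∈ range q, a i :=
        lt_of_le_of_ne (sum_nonneg fun i hi => (hb i hi).1) (Ne.symm h0)
      have hge : (q : ℤ) ≤ ∑ i ∈ range q, a i := Int.le_of_dvd hpos hdvd
      have hz : ∑ i ∈ range q, (1 - a i) = 0 := by
        have hnn : 0 ≤ ∑ i ∈ range q, (1 - a i) :=
          sum_nonneg fun i hi => by linarith [(hb i hi).2]
        rw [sum_sub_distrib, sum_const, card_range, nsmul_one] at hnn ⊢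
        linarith
      have := (sum_eq_zero_iff_of_nonneg (fun i hi => by linarith [(hb i hi).2])).1 hz i
        (mem_range.2 hi)
      omega
  obtain ⟨c, hc'⟩ := hall
  have hPC : P - C (c : ℚ) = 0 := by
    refine eq_zero_of_natDegree_lt_card_of_eval_eq_zero _
      (f := fun l : Fin q => ((l : ℕ) : ℚ)) (fun a b hab => by simpa [Fin.val_inj] using hab)
      (fun l => ?_) ?_
    · rw [eval_sub, eval_C, hP l (by have := l.2; omega), hc' l l.2, sub_self]
    · rw [natDegree_sub_C, Fintype.card_fin]; omega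
  intro j hj
  have hj' := hP j hj
  have h0' := hP 0 (by omega)
  rw [sub_eq_zero.1 hPC, eval_C] at hj' h0'
  exact_mod_cast hj'.symm.trans h0'

/-- Two sequences of degree `≤ e` which agree at `e + 1` of the points agree at all of them. -/
lemma polySeq_eq_of_eqOn {k e : ℕ} {a b : ℕ → ℤ} (ha : IsPolySeq k e a) (hb : IsPolySeq k e b)
    (T : Finset (Fin k)) (hT : e + 1 ≤ T.card) (h : ∀ i ∈ T, a (i : ℕ) = b (i : ℕ))
    (j : ℕ) (hj : j < k) : a j = b j := by
  classical
  obtain ⟨P, hPd, hP⟩ := ha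
  obtain ⟨Q, hQd, hQ⟩ := hb
  have h0 : P - Q = 0 := by
    refine eq_zero_of_natDegree_lt_card_of_eval_eq_zero _
      (f := fun l : T => (((l : Fin k) : ℕ) : ℚ))
      (fun a b hab => Subtype.ext (Fin.ext (by simpa using hab))) (fun l => ?_) ?_
    · rw [eval_sub, hP _ (l : Fin k).2, hQ _ (l : Fin k).2, h _ l.2, sub_self]
    · rw [Fintype.card_coe]
      exact lt_of_le_of_lt (natDegree_sub_le _ _) (by omega)
  have hj' := hP j hj
  rw [sub_eq_zero.1 h0, hQ j hj] at hj'
  exact_mod_cast hj'.symm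

/-- Some set of `m` classes holds at least the average share of the weight. -/
lemma exists_heavy {ι : Type*} [DecidableEq ι] (I : Finset ι) (w : ι → ℕ) {m : ℕ}
    (hm : m ≤ I.card) :
    ∃ U ⊆ I, U.card = m ∧ m * ∑ x ∈ I, w x ≤ I.card * ∑ x ∈ U, w x := by
  classical
  obtain ⟨U, hU, hmax⟩ := exists_max_image (I.powersetCard m) (fun U => ∑ x ∈ U, w x)
    (powersetCard_nonempty.2 hm)
  rw [mem_powersetCard] at hU
  refine ⟨U, hU.1, hU.2, ?_⟩
  have key : ∀ x ∈ U, ∀ y ∈ I \ U, w y ≤ w x := by
    intro x hx y hy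
    rw [mem_sdiff] at hy
    have hy' : y ∉ U.erase x := fun h => hy.2 (mem_of_mem_erase h)
    have hmem : insert y (U.erase x) ∈ I.powersetCard m := by
      rw [mem_powersetCard]
      refine ⟨insert_subset hy.1 ((erase_subset _ _).trans hU.1), ?_⟩
      rw [card_insert_of_notMem hy', card_erase_add_one hx, hU.2]
    have h1 := hmax _ hmem
    rw [sum_insert hy', ← add_sum_erase U w hx] at h1
    omega
  have hd : U.card * ∑ y ∈ I \ U, w y ≤ (I \ U).card * ∑ x ∈ U, w x := by
    calc U.card * ∑ y ∈ I \ U, w y = ∑ x ∈ U, ∑ y ∈ I \ U, w y := by simp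
      _ ≤ ∑ x ∈ U, ∑ _y ∈ I \ U, w x :=
          sum_le_sum fun x hx => sum_le_sum fun y hy => key x hx y hy
      _ = _ := by simp [mul_sum]
  rw [← sum_sdiff hU.1, ← card_sdiff_add_card_eq_card hU.1, mul_add, add_mul, ← hU.2]
  omega

/-- A tuple in `Fin R`, extended by zero to a sequence of integers. -/
def tupleSeq {k R : ℕ} (f : Fin k → Fin R) (j : ℕ) : ℤ :=
  if h : j < k then ((f ⟨j, h⟩ : ℕ) : ℤ) else 0

lemma tupleSeq_apply {k R : ℕ} (f : Fin k → Fin R) (i : Fin k) :
    tupleSeq f (i : ℕ) = ((f i : ℕ) : ℤ) := by simp [tupleSeq, i.2]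

open Classical in
/-- The non-constant polynomial tuples. -/
noncomputable def badTuples (k e R : ℕ) : Finset (Fin k → Fin R) :=
  univ.filter fun f => IsPolySeq k e (tupleSeq f) ∧ ∃ i j, f i ≠ f j

/-- The first index with the same value. -/
noncomputable def rep {k R : ℕ} (f : Fin k → Fin R) (j : Fin k) : Fin k :=
  (univ.filter fun i => f i = f j).min' ⟨j, by simp⟩

lemma rep_spec {k R : ℕ} (f : Fin k → Fin R) (j : Fin k) : f (rep f j) = f j :=
  (mem_filter.1 (min'_mem (univ.filter fun i => f i = f j) ⟨j, by simp⟩)).2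

lemma rep_eq {k R : ℕ} (f : Fin k → Fin R) {i j : Fin k} (h : f i = f j) : rep f i = rep f j := by
  simp [rep, h]

lemma card_image_rep {k R : ℕ} (f : Fin k → Fin R) :
    (univ.image (rep f)).card = (univ.image f).card := by
  rw [← card_image_of_injOn (f := f) (s := univ.image (rep f))]
  · rw [image_image]
    congr 1
    exact image_congr fun j _ => rep_spec f j
  · intro x hx y hy hxy
    simp only [coe_image, Set.mem_image, coe_univ, Set.mem_univ, true_and] at hx hy
    obtain ⟨a, rfl⟩ := hx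
    obtain ⟨b, rfl⟩ := hy
    rw [rep_spec f a, rep_spec f b] at hxy
    exact rep_eq f hxy

open Classical in
lemma card_class_le {k e q R : ℕ} (hR : 1 ≤ R) (hq : q.Prime) (h1 : e + 2 ≤ q) (h2 : q ≤ k)
    (g : Fin k → Fin k) :
    ((badTuples k e R).filter fun f => rep f = g).card
      ≤ R ^ (min ((univ.image g).card - 1) (e * (univ.image g).card / k + 1)) := by
  set F := (badTuples k e R).filter fun f => rep f = g with hF
  set I := univ.image g with hI
  set r := I.card with hr
  have hval : ∀ f ∈ F, ∀ j, f (g j) = f j := fun f hf j => by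
    rw [← (mem_filter.1 hf).2]; exact rep_spec f j
  have hpoly : ∀ f ∈ F, IsPolySeq k e (tupleSeq f) := fun f hf =>
    (mem_filter.1 (mem_filter.1 hf).1).2.1
  have main : ∀ S : Finset (Fin k), (∀ f ∈ F, ∀ f' ∈ F, (∀ x ∈ S, f x = f' x) → f = f') →
      F.card ≤ R ^ S.card := by
    intro S hS
    have := card_le_card_of_injOn (t := (univ : Finset (S → Fin R))) (s := F)
      (fun f => fun x : S => f x) (fun _ _ => mem_univ _)
      (fun f hf f' hf' hff => hS f hf f' hf' fun x hx => congr_fun hff ⟨x, hx⟩)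
    simpa using this
  rcases F.eq_empty_or_nonempty with h0 | ⟨f0, hf0⟩
  · simp [h0]
  have hk : 0 < k := by omega
  rcases min_choice (r - 1) (e * r / k + 1) with hmin | hmin <;> rw [hmin]
  · -- one of the values is determined by the others
    have hex : ∃ x ∈ I, ∃ s, s + e + 1 < k ∧
        diffSum e (fun j => if h : j < k then (if g ⟨j, h⟩ = x then 1 else 0) else 0) s ≠ 0 := by
      by_contra hcon
      push Not at hcon
      obtain ⟨i, j, hij⟩ := (mem_filter.1 (mem_filter.1 hf0).1).2.2
      have hg : g i ≠ g j := fun h => hij (by rw [← hval f0 hf0 i, h, hval f0 hf0 j])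
      have hc := zero_one_const hq h1 h2
        (a := fun l => if h : l < k then (if g ⟨l, h⟩ = g i then (1 : ℤ) else 0) else 0)
        (fun l hl => by simp only [hl, dite_true]; split <;> simp)
        (isPolySeq_of_diffSum fun s hs => hcon (g i) (mem_image_of_mem g (mem_univ i)) s hs)
      have hi := hc i i.2
      have hj := hc j j.2
      have hij' := hi.trans hj.symm
      simp [i.2, j.2, Ne.symm hg] at hij'
    obtain ⟨x, hx, s, hs, hne⟩ := hex
    have hcard : (I.erase x).card = r - 1 := card_erase_of_mem hx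
    rw [← hcard]
    refine main _ fun f hf f' hf' heq => ?_
    have hd : ∀ j : Fin k, ((f j : ℕ) : ℤ) - (f' j : ℕ)
        = (if g j = x then 1 else 0) * (((f x : ℕ) : ℤ) - (f' x : ℕ)) := by
      intro j
      rw [← hval f hf j, ← hval f' hf' j]
      by_cases hjx : g j = x
      · simp [hjx]
      · rw [heq (g j) (mem_erase.2 ⟨hjx, mem_image_of_mem g (mem_univ j)⟩)]
        simp [hjx]
    have hz : diffSum e (fun j => if h : j < k then (if g ⟨j, h⟩ = x then 1 else 0) else 0) s *
        (((f x : ℕ) : ℤ) - (f' x : ℕ)) = 0 := by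
      have e1 := (hpoly f hf).diffSum_eq_zero hs
      have e2 := (hpoly f' hf').diffSum_eq_zero hs
      rw [← sub_self (0 : ℤ)]
      conv_rhs => arg 1; rw [← e1]
      conv_rhs => arg 2; rw [← e2]
      simp only [diffSum, sum_mul, ← sum_sub_distrib]
      refine sum_congr rfl fun i hi => ?_
      have hi' : s + i < k := by have := mem_range.1 hi; omega
      simp only [tupleSeq, hi', dite_true]
      rw [← mul_sub, hd ⟨s + i, hi'⟩]
      ring
    have hxx := (mul_eq_zero.1 hz).resolve_left hne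
    funext j
    have := hd j
    rw [hxx, mul_zero] at this
    exact Fin.ext (by omega)
  · -- the values on the heaviest classes determine the sequence
    set w : Fin k → ℕ := fun x => (univ.filter fun j => g j = x).card
    have hw : ∑ x ∈ I, w x = k := by
      rw [← card_eq_sum_card_image]; simp
    have hm : e * r / k + 1 ≤ r ∨ r < e * r / k + 1 := le_or_gt _ _
    rcases hm with hm | hm
    · obtain ⟨U, hU, hUc, hUw⟩ := exists_heavy I w hm
      rw [← hUc]
      refine main U fun f hf f' hf' heq => ?_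
      set T := univ.filter fun j => g j ∈ U with hT
      have hTc : T.card = ∑ x ∈ U, w x := by
        rw [card_eq_sum_card_fiberwise (f := g) (s := T) (t := U)
          (fun j hj => (mem_filter.1 hj).2)]
        refine sum_congr rfl fun x hx => ?_
        congr 1
        ext j
        simp [hT]
        exact fun h => h ▸ hx
      have hlt : e < T.card := by
        rw [hTc]
        rw [hw] at hUw
        have hgt : e * r < (e * r / k + 1) * k := by
          rw [add_one_mul]; exact Nat.lt_div_mul_add hk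
        by_contra hle
        have : r * ∑ x ∈ U, w x ≤ r * e := Nat.mul_le_mul_left r (by omega)
        rw [Nat.mul_comm e r] at hgt
        rw [Nat.mul_comm e r, ← hr] at hUw
        omega
      funext j
      have := polySeq_eq_of_eqOn (hpoly f hf) (hpoly f' hf') T hlt (fun i hi => by
        rw [tupleSeq_apply, tupleSeq_apply, ← hval f hf i, ← hval f' hf' i,
          heq (g i) (mem_filter.1 hi).2]) j j.2
      rw [tupleSeq_apply, tupleSeq_apply] at this
      exact Fin.ext (by omega)
    · refine le_trans (main I fun f hf f' hf' heq => funext fun j => ?_)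
        (Nat.pow_le_pow_right hR hm.le)
      rw [← hval f hf j, ← hval f' hf' j, heq (g j) (mem_image_of_mem g (mem_univ j))]

lemma card_maps_to_zero {R Q : ℕ} [NeZero Q] (S : Finset (Fin R)) :
    ((univ : Finset (Fin R → Fin Q)).filter fun f => ∀ x ∈ S, f x = 0).card
      = Q ^ (R - S.card) := by
  classical
  have : ((univ : Finset (Fin R → Fin Q)).filter fun f => ∀ x ∈ S, f x = 0)
      = Fintype.piFinset fun x => if x ∈ S then ({0} : Finset (Fin Q)) else univ := by
    ext f
    simp only [mem_filter, mem_univ, true_and, Fintype.mem_piFinset]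
    refine ⟨fun h x => ?_, fun h x hx => by simpa [hx] using h x⟩
    by_cases hx : x ∈ S
    · simp [hx, h x hx]
    · simp [hx]
  rw [this, Fintype.card_piFinset, ← prod_mul_prod_compl S]
  have e1 : ∏ x ∈ S, (if x ∈ S then ({0} : Finset (Fin Q)) else univ).card = 1 :=
    prod_eq_one fun x hx => by simp [hx]
  have e2 : ∏ x ∈ Sᶜ, (if x ∈ S then ({0} : Finset (Fin Q)) else univ).card = Q ^ Sᶜ.card := by
    rw [← prod_const]
    exact prod_congr rfl fun x hx => by simp [mem_compl.1 hx]
  rw [e1, e2, one_mul, card_compl, Fintype.card_fin]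

/-- Random deletion. -/
theorem exists_polyFree {k e q : ℕ} {c : ℝ} (hq : q.Prime) (h1 : e + 2 ≤ q) (h2 : q ≤ k)
    (hc0 : 0 ≤ c)
    (hc : ∀ r, 2 ≤ r → r ≤ k → ((min (r - 1) (e * r / k + 1) : ℕ) : ℝ) - 1 ≤ c * (r - 1)) :
    ∃ L : ℝ, 0 < L ∧ ∀ R : ℕ, 1 ≤ R → ∃ A : Finset ℤ, (∀ x ∈ A, 0 ≤ x ∧ x < (R : ℤ)) ∧
      PolyFree k e A ∧ (R : ℝ) ^ (1 - c) / L ≤ (A.card : ℝ) := by
  classical
  set L₀ : ℝ := 2 * (k : ℝ) ^ k with hL₀
  have hk : 0 < k := by omega
  have hkk : (1 : ℝ) ≤ (k : ℝ) ^ k := one_le_pow₀ (by exact_mod_cast hk)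
  have hL₁ : 1 ≤ L₀ := by rw [hL₀]; linarith
  refine ⟨4 * L₀, by positivity, fun R hR => ?_⟩
  have hRr : (1 : ℝ) ≤ R := by exact_mod_cast hR
  have hRc : (1 : ℝ) ≤ (R : ℝ) ^ c := Real.one_le_rpow hRr hc0
  set Q := ⌈L₀ * (R : ℝ) ^ c⌉₊ with hQ
  have hprod : (1 : ℝ) ≤ L₀ * (R : ℝ) ^ c := one_le_mul_of_one_le_of_one_le hL₁ hRc
  have hQlow : L₀ * (R : ℝ) ^ c ≤ Q := Nat.le_ceil _
  have hQhi : (Q : ℝ) ≤ 2 * (L₀ * (R : ℝ) ^ c) := by
    have := Nat.ceil_lt_add_one (R := ℝ) (by linarith : 0 ≤ L₀ * (R : ℝ) ^ c)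
    rw [← hQ] at this
    linarith
  have hQpos : 0 < Q := by
    rw [hQ]; exact Nat.ceil_pos.2 (by linarith)
  have : NeZero Q := ⟨hQpos.ne'⟩
  have hQr : (0 : ℝ) < Q := by exact_mod_cast hQpos
  -- a colour class and the bad tuples inside it
  let Bset : (Fin R → Fin Q) → Finset (Fin R) := fun φ => univ.filter fun x => φ x = 0
  let inside : (Fin R → Fin Q) → Finset (Fin k → Fin R) := fun φ =>
    (badTuples k e R).filter fun f => ∀ i, φ (f i) = 0
  have hS1 : ∑ φ, ((Bset φ).card : ℝ) = R * (Q : ℝ) ^ (R - 1) := by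
    have : ∑ φ, (Bset φ).card = R * Q ^ (R - 1) := by
      simp only [Bset, card_filter]
      rw [sum_comm]
      have h : ∀ x : Fin R, ∑ φ : Fin R → Fin Q, (if φ x = 0 then 1 else 0) = Q ^ (R - 1) := by
        intro x
        rw [← card_filter, ← card_singleton x, ← card_maps_to_zero (Q := Q) {x}]
        simp
      rw [sum_congr rfl fun x _ => h x]
      simp
    exact_mod_cast this
  have hS2 : ∑ φ, ((inside φ).card : ℝ) =
      ∑ f ∈ badTuples k e R, (Q : ℝ) ^ (R - (univ.image f).card) := by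
    have : ∑ φ, (inside φ).card = ∑ f ∈ badTuples k e R, Q ^ (R - (univ.image f).card) := by
      simp only [inside, card_filter]
      rw [sum_comm]
      refine sum_congr rfl fun f _ => ?_
      rw [← card_filter, ← card_maps_to_zero (univ.image f)]
      simp
    exact_mod_cast this
  have hS3 : ∑ f ∈ badTuples k e R, (Q : ℝ) ^ (R - (univ.image f).card)
      ≤ R * (Q : ℝ) ^ (R - 1) / 2 := by
    rw [← sum_fiberwise_of_maps_to (t := (univ : Finset (Fin k → Fin k))) (g := rep)
      (fun _ _ => mem_univ _)]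
    have hb : ∀ g : Fin k → Fin k,
        ∑ f ∈ (badTuples k e R).filter (fun f => rep f = g),
          (Q : ℝ) ^ (R - (univ.image f).card) ≤ R * (Q : ℝ) ^ (R - 1) / L₀ := by
      intro g
      set F := (badTuples k e R).filter (fun f => rep f = g) with hF
      rcases F.eq_empty_or_nonempty with h0 | ⟨f0, hf0⟩
      · rw [h0, sum_empty]; positivity
      set r := (univ.image g).card with hr
      have himg : ∀ f ∈ F, (univ.image f).card = r := fun f hf => by
        rw [hr, ← (mem_filter.1 hf).2, card_image_rep]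
      have hrR : r ≤ R := by rw [← himg f0 hf0]; exact le_trans (card_le_univ _) (by simp)
      have hrk : r ≤ k := le_trans (card_le_univ _) (by simp)
      have hr2 : 2 ≤ r := by
        obtain ⟨i, j, hij⟩ := (mem_filter.1 (mem_filter.1 hf0).1).2.2
        rw [← himg f0 hf0]
        exact one_lt_card.2 ⟨f0 i, by simp, f0 j, by simp, hij⟩
      rw [sum_congr rfl fun f hf => by rw [himg f hf], sum_const, nsmul_eq_mul]
      have hcard := card_class_le (e := e) hR hq h1 h2 g
      rw [← hF, ← hr] at hcard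
      set t := min (r - 1) (e * r / k + 1) with ht
      have hcR : (F.card : ℝ) ≤ (R : ℝ) ^ t := by exact_mod_cast hcard
      have hsplit : (Q : ℝ) ^ (R - 1) = (Q : ℝ) ^ (R - r) * (Q : ℝ) ^ (r - 1) := by
        rw [← pow_add]; congr 1; omega
      have hkey : (R : ℝ) ^ t * L₀ ≤ R * (Q : ℝ) ^ (r - 1) := by
        have e1 : (R : ℝ) ^ t ≤ R * ((R : ℝ) ^ c) ^ (r - 1) := by
          rw [← Real.rpow_natCast (R : ℝ) t, ← Real.rpow_natCast ((R : ℝ) ^ c) (r - 1),
            ← Real.rpow_mul (by positivity)]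
          conv_rhs => arg 1; rw [← Real.rpow_one (R : ℝ)]
          rw [← Real.rpow_add (by positivity)]
          refine Real.rpow_le_rpow_of_exponent_le hRr ?_
          rw [Nat.cast_sub (by omega : 1 ≤ r), Nat.cast_one]
          have := hc r hr2 hrk
          linarith
        have e2 : L₀ * ((R : ℝ) ^ c) ^ (r - 1) ≤ (Q : ℝ) ^ (r - 1) := by
          calc L₀ * ((R : ℝ) ^ c) ^ (r - 1) ≤ L₀ ^ (r - 1) * ((R : ℝ) ^ c) ^ (r - 1) :=
                mul_le_mul_of_nonneg_right (le_self_pow₀ hL₁ (by omega)) (by positivity)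
            _ = (L₀ * (R : ℝ) ^ c) ^ (r - 1) := (mul_pow _ _ _).symm
            _ ≤ _ := pow_le_pow_left₀ (by linarith) hQlow _
        calc (R : ℝ) ^ t * L₀ ≤ R * ((R : ℝ) ^ c) ^ (r - 1) * L₀ :=
              mul_le_mul_of_nonneg_right e1 (by linarith)
          _ = R * (L₀ * ((R : ℝ) ^ c) ^ (r - 1)) := by ring
          _ ≤ _ := mul_le_mul_of_nonneg_left e2 (by positivity)
      rw [le_div_iff₀ (by linarith), hsplit]
      calc (F.card : ℝ) * (Q : ℝ) ^ (R - r) * L₀
          ≤ ((R : ℝ) ^ t * L₀) * (Q : ℝ) ^ (R - r) := by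
            have := mul_le_mul_of_nonneg_right hcR
              (by positivity : 0 ≤ (Q : ℝ) ^ (R - r) * L₀)
            linarith
        _ ≤ (R * (Q : ℝ) ^ (r - 1)) * (Q : ℝ) ^ (R - r) :=
            mul_le_mul_of_nonneg_right hkey (by positivity)
        _ = _ := by ring
    refine le_trans (sum_le_sum fun g _ => hb g) ?_
    rw [sum_const, card_univ, Fintype.card_fun, Fintype.card_fin, nsmul_eq_mul, hL₀]
    push_cast
    apply le_of_eq
    field_simp
  obtain ⟨φ, -, hφ⟩ := exists_le_of_sum_le (s := (univ : Finset (Fin R → Fin Q))) univ_nonempty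
    (f := fun _ => (R : ℝ) / (2 * Q))
    (g := fun φ => ((Bset φ).card : ℝ) - (inside φ).card) (by
      rw [sum_sub_distrib, hS1, hS2, sum_const, card_univ, Fintype.card_fun, Fintype.card_fin,
        Fintype.card_fin, nsmul_eq_mul]
      push_cast
      have : (Q : ℝ) ^ R * (R / (2 * Q)) = R * (Q : ℝ) ^ (R - 1) / 2 := by
        conv_lhs => rw [show R = R - 1 + 1 by omega, pow_succ]
        rw [show R - 1 + 1 = R by omega]
        field_simp
      linarith)
  set f0 : (Fin k → Fin R) → Fin R := fun f => f ⟨0, hk⟩ with hf0def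
  set A₀ := Bset φ \ (inside φ).image f0 with hA₀
  refine ⟨A₀.image fun x : Fin R => ((x : ℕ) : ℤ), ?_, ?_, ?_⟩
  · simp only [mem_image, forall_exists_index, and_imp]
    rintro _ x _ rfl
    exact ⟨by positivity, by exact_mod_cast x.2⟩
  · intro a ha hp j hj
    by_contra hne
    have hx : ∀ i : Fin k, ∃ x ∈ A₀, a (i : ℕ) = ((x : ℕ) : ℤ) := fun i => by
      obtain ⟨x, hx, hxe⟩ := mem_image.1 (ha i i.2)
      exact ⟨x, hx, hxe.symm⟩
    choose f hf hfe using hx
    have hbad : f ∈ inside φ := by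
      refine mem_filter.2 ⟨mem_filter.2 ⟨mem_univ _, ?_, ⟨j, hj⟩, ⟨0, hk⟩, fun h => hne ?_⟩,
        fun i => (mem_filter.1 (mem_sdiff.1 (hf i)).1).2⟩
      · obtain ⟨P, hd, hP⟩ := hp
        refine ⟨P, hd, fun i hi => ?_⟩
        rw [hP i hi, hfe ⟨i, hi⟩]
        simp [tupleSeq, hi]
      · rw [hfe ⟨j, hj⟩, hfe ⟨0, hk⟩, h]
    exact (mem_sdiff.1 (hf ⟨0, hk⟩)).2 (mem_image_of_mem f0 hbad)
  · rw [card_image_of_injective _ (fun x y h => by
      exact Fin.ext (by exact_mod_cast h))]
    have h1 : ((Bset φ).card : ℝ) - (inside φ).card ≤ A₀.card := by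
      have := le_card_sdiff ((inside φ).image f0) (Bset φ)
      have := card_image_le (s := inside φ) (f := f0)
      have h : (Bset φ).card ≤ A₀.card + (inside φ).card := by rw [hA₀]; omega
      have : ((Bset φ).card : ℝ) ≤ A₀.card + (inside φ).card := by exact_mod_cast h
      linarith
    refine le_trans ?_ (le_trans hφ h1)
    rw [Real.rpow_sub (by positivity), Real.rpow_one, div_div]
    exact div_le_div_of_nonneg_left (by positivity) (by positivity) (by linarith)

end Vale.Agent.P057
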