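import Vale.Agent.P057.Base

/-!
The Behrend-Rankin layer: from degree `2e` to degree `e`, with the exact leading constant.
-/

namespace Vale.Agent.P057

open Finset Filter

/-- Sets without `k`-term degree `≤ e` sequences in `[0, R)` exist of size at least
`R * 2^(-K' (log₂ R)^(1/m) - C)` for every `K' > K`. -/
def SizeBound (k e : ℕ) (K : ℝ) (m : ℕ) : Prop :=
  ∀ K' : ℝ, K < K' → ∃ C : ℝ, ∀ R : ℕ, 1 ≤ R → ∃ A : Finset ℤ,
    (∀ x ∈ A, 0 ≤ x ∧ x < (R : ℤ)) ∧ PolyFree k e A ∧ A.Nonempty ∧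
      Real.logb 2 R - K' * Real.logb 2 R ^ ((1 : ℝ) / m) - C ≤ Real.logb 2 A.card

lemma sizeBound_base {k e q : ℕ} {c : ℝ} (hq : q.Prime) (h1 : e + 2 ≤ q) (h2 : q ≤ k)
    (hc0 : 0 ≤ c)
    (hc : ∀ r, 2 ≤ r → r ≤ k → ((min (r - 1) (e * r / k + 1) : ℕ) : ℝ) - 1 ≤ c * (r - 1)) :
    SizeBound k e c 1 := by
  obtain ⟨L, hL, h⟩ := exists_polyFree (e := e) hq h1 h2 hc0 hc
  intro K' hK'
  refine ⟨Real.logb 2 L, fun R hR => ?_⟩
  obtain ⟨A, hA1, hA2, hA3⟩ := h R hR
  have hRr : (1 : ℝ) ≤ R := by exact_mod_cast hR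
  have hpos : 0 < (R : ℝ) ^ (1 - c) / L := by positivity
  have hne : A.Nonempty := by
    rw [← card_pos]
    exact_mod_cast lt_of_lt_of_le hpos hA3
  refine ⟨A, hA1, hA2, hne, ?_⟩
  refine le_trans ?_ (Real.logb_le_logb_of_le (by norm_num) hpos hA3)
  rw [Real.logb_div (by positivity) hL.ne', Real.logb_rpow_eq_mul_logb_of_pos (by positivity)]
  have hT : 0 ≤ Real.logb 2 (R : ℝ) := Real.logb_nonneg (by norm_num) hRr
  simp only [Nat.cast_one, div_one, Real.rpow_one]
  have := mul_le_mul_of_nonneg_right hK'.le hT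
  linarith

lemma exists_layer_set {k e D M w R : ℕ} (hk : 2 * e < k) (hM : 2 ^ e * w < M)
    (hMR : M ^ D ≤ R) (B : Finset ℤ) (hB : PolyFree k (2 * e) B)
    (hBr : ∀ x ∈ B, 0 ≤ x ∧ x < ((D * M ^ 2 + 1 : ℕ) : ℤ)) :
    ∃ A : Finset ℤ, (∀ x ∈ A, 0 ≤ x ∧ x < (R : ℤ)) ∧ PolyFree k e A ∧
      (w + 1) ^ D * B.card ≤ 2 * (D * M ^ 2 + 1) * A.card := by
  classical
  have hwM : w < M := lt_of_le_of_lt (Nat.le_mul_of_pos_left w (by positivity)) hM
  set R' := D * M ^ 2 + 1 with hR'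
  set Y : Finset (Fin D → ℕ) := Fintype.piFinset fun _ : Fin D => range (w + 1) with hY
  have hYle : ∀ y ∈ Y, ∀ i, y i ≤ w := fun y hy i => by
    have := mem_range.1 (Fintype.mem_piFinset.1 hy i)
    omega
  let qf : (Fin D → ℕ) → ℤ := fun y => ∑ i, (y i : ℤ) ^ 2
  have hqr : ∀ y ∈ Y, 0 ≤ qf y ∧ qf y < (R' : ℤ) := fun y hy => by
    refine ⟨sum_nonneg fun i _ => sq_nonneg _, ?_⟩
    have h : qf y ≤ ∑ _i : Fin D, (M : ℤ) ^ 2 := sum_le_sum fun i _ => by
      refine pow_le_pow_left₀ (by positivity) ?_ 2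
      exact_mod_cast le_trans (hYle y hy i) hwM.le
    rw [sum_const, card_univ, Fintype.card_fin, nsmul_eq_mul] at h
    rw [hR']
    push_cast
    linarith
  set S : Finset ℤ := Ioc (-(R' : ℤ)) (R' : ℤ) with hS
  have hsum : ∑ s ∈ S, (Y.filter fun y => qf y - s ∈ B).card = Y.card * B.card := by
    simp only [card_filter]
    rw [sum_comm, ← smul_eq_mul, ← sum_const]
    refine sum_congr rfl fun y hy => ?_
    rw [← card_filter]
    refine card_bij' (fun s _ => qf y - s) (fun b _ => qf y - b)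
      (fun s hs => (mem_filter.1 hs).2) (fun b hb => mem_filter.2 ⟨?_, by simpa using hb⟩)
      (fun s _ => by ring) (fun b _ => by ring)
    have := hBr b hb
    have := hqr y hy
    rw [hS, mem_Ioc]
    constructor <;> omega
  have hScard : S.card = 2 * R' := by
    rw [hS, Int.card_Ioc]; omega
  have hSne : S.Nonempty := card_pos.1 (by rw [hScard]; positivity)
  obtain ⟨s, -, hs⟩ := exists_max_image S (fun s => (Y.filter fun y => qf y - s ∈ B).card) hSne
  have hle := sum_le_card_nsmul S _ _ hs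
  rw [hsum, hScard, smul_eq_mul] at hle
  set G := Y.filter fun y => qf y - s ∈ B with hG
  have hGY : ∀ y ∈ G, y ∈ Y := fun y hy => (mem_filter.1 hy).1
  refine ⟨G.image fun y => ofDigitsVec (M : ℤ) y, ?_, ?_, ?_⟩
  · simp only [mem_image, forall_exists_index, and_imp]
    rintro _ y hy rfl
    refine ⟨sum_nonneg fun i _ => by positivity, ?_⟩
    have h1 : ofDigitsVec (M : ℤ) y ≤ ∑ i : Fin D, ((M : ℤ) - 1) * (M : ℤ) ^ (i : ℕ) :=
      sum_le_sum fun i _ => mul_le_mul_of_nonneg_right (by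
        have := hYle y (hGY y hy) i
        omega) (by positivity)
    rw [← mul_sum, Fin.sum_univ_eq_sum_range fun i => (M : ℤ) ^ i, mul_comm, geom_sum_mul] at h1
    have h2 : ((M : ℤ) ^ D) ≤ R := by exact_mod_cast hMR
    linarith
  · intro a ha hp j hj
    have hx : ∀ l : ℕ, ∃ y : Fin D → ℕ, l < k → y ∈ G ∧ ofDigitsVec (M : ℤ) y = a l := by
      intro l
      by_cases hl : l < k
      · obtain ⟨y, hy, hye⟩ := mem_image.1 (ha l hl)
        exact ⟨y, fun _ => ⟨hy, hye⟩⟩
      · exact ⟨0, fun h => absurd h hl⟩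
    choose y hy using hx
    have hpd : IsPolySeq k e fun l => ofDigitsVec (M : ℤ) (y l) := by
      obtain ⟨P, hd, hP⟩ := hp
      exact ⟨P, hd, fun l hl => by rw [hP l hl]; exact_mod_cast ((hy l hl).2).symm⟩
    have hdig : ∀ i, IsPolySeq k e fun l => (y l i : ℤ) :=
      digit_isPolySeq (w := w) (by exact_mod_cast hM) y
        (fun l hl => hYle _ (hGY _ (hy l hl).1)) hpd
    have hq2 : IsPolySeq k (2 * e) fun l => qf (y l) - s := by
      choose P hd hP using hdig
      refine ⟨(∑ i, P i ^ 2) - Polynomial.C (s : ℚ), ?_, fun l hl => ?_⟩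
      · rw [Polynomial.natDegree_sub_C]
        exact Polynomial.natDegree_sum_le_of_forall_le _ _ fun i _ =>
          Polynomial.natDegree_pow_le.trans (Nat.mul_le_mul_left 2 (hd i))
      · simp only [Polynomial.eval_sub, Polynomial.eval_finsetSum, Polynomial.eval_pow,
          Polynomial.eval_C, hP _ l hl, qf]
        push_cast
        ring
    have hconst := hB _ (fun l hl => (mem_filter.1 (hy l hl).1).2) hq2
    have heq : y j = y 0 := by
      funext i
      have := const_of_sumSq_const hk (fun i l => (y l i : ℤ)) hdig (fun l hl => by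
        have := hconst l hl
        simp only [qf] at this
        linarith) i hj
      exact_mod_cast this
    rw [← (hy j hj).2, heq, (hy 0 (by omega)).2]
  · rw [card_image_of_injOn fun y hy y' hy' h =>
      ofDigitsVec_injective hwM y y' (hYle y (hGY y hy)) (hYle y' (hGY y' hy')) h]
    have hYc : Y.card = (w + 1) ^ D := by rw [hY, Fintype.card_piFinset]; simp
    rw [← hYc]
    exact hle

theorem sizeBound_step {k e m : ℕ} {K α : ℝ} (hk : 2 * e < k) (hm : 1 ≤ m) (hK : 0 ≤ K)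
    (hα : 0 < α) (h : SizeBound k (2 * e) K m) :
    SizeBound k e (e * α + K * (2 / α) ^ ((1 : ℝ) / m)) (m + 1) := by
  intro K' hK'
  have hm0 : (0 : ℝ) ≤ 1 / m := by positivity
  have hcont : Continuous fun η : ℝ =>
      ((e : ℝ) + η) * (α + η) + (K + η) * (2 / α + η) ^ ((1 : ℝ) / m) + η := by fun_prop
  have hev : ∀ᶠ η in nhdsWithin (0 : ℝ) (Set.Ioi 0),
      ((e : ℝ) + η) * (α + η) + (K + η) * (2 / α + η) ^ ((1 : ℝ) / m) + η < K' :=
    ((hcont.tendsto 0).mono_left nhdsWithin_le_nhds).eventually_lt_const (by simpa using hK')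
  obtain ⟨η, hηK, hη⟩ := (hev.and self_mem_nhdsWithin).exists
  replace hη : 0 < η := hη
  obtain ⟨C₀, hC₀⟩ := h (K + η) (by linarith)
  have hαη : 0 < α + η := by linarith
  -- large values of the parameter
  have hlarge : ∀ᶠ X : ℝ in atTop, 1 ≤ X ∧ 1 ≤ η * X ∧
      Real.logb 2 (2 * ((α + η) * X)) ≤ η * X ∧
      1 ≤ (2 : ℝ) ^ (X / (α + η)) * (1 - (2 : ℝ) ^ (-η)) := by
    refine (eventually_ge_atTop 1).and (((tendsto_id.const_mul_atTop hη).eventually_ge_atTop 1).and
      (Eventually.and ?_ ?_))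
    · have hl := (Real.isLittleO_log_id_atTop.bound
        (show 0 < η * Real.log 2 / 2 by positivity))
      filter_upwards [hl, eventually_ge_atTop 1,
        (tendsto_id.const_mul_atTop (show 0 < η * Real.log 2 / 2 by positivity)).eventually_ge_atTop
          (Real.log (2 * (α + η)))] with X hX hX1 hX2
      simp only [id_eq, Real.norm_eq_abs, abs_of_nonneg (by linarith : 0 ≤ X),
        abs_of_nonneg (Real.log_nonneg hX1)] at hX hX2
      rw [← mul_assoc, Real.logb, div_le_iff₀ (Real.log_pos (by norm_num)),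
        Real.log_mul (by positivity) (by linarith)]
      linarith
    · have hpos : 0 < 1 - (2 : ℝ) ^ (-η) :=
        sub_pos.2 (Real.rpow_lt_one_of_one_lt_of_neg (by norm_num) (by linarith))
      exact ((tendsto_rpow_atTop_of_base_gt_one 2 (by norm_num)).comp
        (tendsto_id.atTop_div_const hαη) |>.atTop_mul_const hpos).eventually_ge_atTop 1
  obtain ⟨X₀, hX₀⟩ := eventually_atTop.1 hlarge
  refine ⟨max (1 + max C₀ 0) (max X₀ 1 ^ (m + 1)), fun R hR => ?_⟩
  set T := Real.logb 2 (R : ℝ) with hTdef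
  have hT : 0 ≤ T := Real.logb_nonneg (by norm_num) (by exact_mod_cast hR)
  set X := T ^ ((1 : ℝ) / ((m + 1 : ℕ) : ℝ)) with hXdef
  have hXn : 0 ≤ X := Real.rpow_nonneg hT _
  have hXT : X ^ (m + 1) = T := by
    rw [hXdef, one_div, Real.rpow_inv_natCast_pow hT (by omega)]
  have hK'0 : 0 ≤ K' := by
    have : 0 ≤ (e : ℝ) * α + K * (2 / α) ^ ((1 : ℝ) / m) := by positivity
    linarith
  by_cases hXX : max X₀ 1 ≤ X
  swap
  · refine ⟨{0}, by simp only [mem_singleton, forall_eq]; exact ⟨le_rfl, by exact_mod_cast hR⟩,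
      fun a ha _ j hj => ?_, singleton_nonempty 0, ?_⟩
    · rw [mem_singleton.1 (ha j hj), mem_singleton.1 (ha 0 (by omega))]
    · simp only [card_singleton, Nat.cast_one, Real.logb_one]
      have h1 : T ≤ max X₀ 1 ^ (m + 1) := by
        rw [← hXT]; exact pow_le_pow_left₀ hXn (not_le.1 hXX).le _
      have h2 := le_max_right (1 + max C₀ 0) (max X₀ 1 ^ (m + 1))
      have h3 := mul_nonneg hK'0 hXn
      linarith
  obtain ⟨hX1, hXη, hXlog, hXexp⟩ := hX₀ X (le_trans (le_max_left _ _) hXX)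
  set D := ⌈α * X⌉₊ with hDdef
  have hDlo : α * X ≤ D := Nat.le_ceil _
  have hDhi : (D : ℝ) ≤ (α + η) * X := by
    have := Nat.ceil_lt_add_one (R := ℝ) (by positivity : 0 ≤ α * X)
    rw [← hDdef] at this
    linarith
  have hDpos : (0 : ℝ) < D := lt_of_lt_of_le (by positivity) hDlo
  have hXm : X ≤ X ^ m := le_self_pow₀ hX1 (by omega)
  have hTD : T / D ≤ X ^ m / α := by
    rw [div_le_div_iff₀ hDpos hα, ← hXT, pow_succ, mul_assoc, mul_comm X α]
    exact mul_le_mul_of_nonneg_left hDlo (by positivity)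
  have hTD' : X / (α + η) ≤ T / D := by
    rw [div_le_div_iff₀ hαη hDpos, ← hXT]
    calc X * (D : ℝ) ≤ X * ((α + η) * X) := mul_le_mul_of_nonneg_left hDhi hXn
      _ ≤ X ^ m * ((α + η) * X) := mul_le_mul_of_nonneg_right hXm (by positivity)
      _ = _ := by rw [pow_succ]; ring
  set M := ⌊(2 : ℝ) ^ (T / D)⌋₊ with hMdef
  have hMhi : (M : ℝ) ≤ (2 : ℝ) ^ (T / D) := Nat.floor_le (by positivity)
  have hMlo : (2 : ℝ) ^ (T / D - η) ≤ M := by
    have h1 := Nat.lt_floor_add_one ((2 : ℝ) ^ (T / D))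
    rw [← hMdef] at h1
    have h2 : (2 : ℝ) ^ (T / D - η) = (2 : ℝ) ^ (T / D) * (2 : ℝ) ^ (-η) := by
      rw [← Real.rpow_add (by norm_num)]; ring_nf
    have h3 : (2 : ℝ) ^ (X / (α + η)) * (1 - (2 : ℝ) ^ (-η))
        ≤ (2 : ℝ) ^ (T / D) * (1 - (2 : ℝ) ^ (-η)) :=
      mul_le_mul_of_nonneg_right (Real.rpow_le_rpow_of_exponent_le (by norm_num) hTD')
        (sub_nonneg.2 (Real.rpow_le_one_of_one_le_of_nonpos (by norm_num) (by linarith)))
    rw [h2]
    linarith
  have hM1 : 1 ≤ M := by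
    have : (0 : ℝ) < M := lt_of_lt_of_le (by positivity) hMlo
    exact_mod_cast this
  have hMR : M ^ D ≤ R := by
    have h1 : ((M : ℝ)) ^ D ≤ R := by
      refine le_trans (pow_le_pow_left₀ (by positivity) hMhi D) (le_of_eq ?_)
      rw [← Real.rpow_natCast ((2 : ℝ) ^ (T / D)) D, ← Real.rpow_mul (by norm_num),
        div_mul_cancel₀ _ hDpos.ne', hTdef,
        Real.rpow_logb (by norm_num) (by norm_num) (by exact_mod_cast hR)]
    exact_mod_cast h1
  set w := (M - 1) / 2 ^ e with hwdef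
  have hw1 : 2 ^ e * w < M :=
    lt_of_le_of_lt (Nat.mul_div_le (M - 1) (2 ^ e)) (by omega)
  have hw2 : M ≤ 2 ^ e * (w + 1) := by
    have := Nat.lt_mul_div_succ (M - 1) (show 0 < 2 ^ e by positivity)
    rw [← hwdef] at this
    omega
  set R' := D * M ^ 2 + 1 with hR'def
  obtain ⟨B, hB1, hB2, hB3, hB4⟩ := hC₀ R' (by omega)
  obtain ⟨A, hA1, hA2, hA3⟩ := exists_layer_set (R := R) hk hw1 hMR B hB2 hB1
  have hAne : A.Nonempty := by
    rw [← card_pos]
    refine Nat.pos_of_ne_zero fun h0 => ?_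
    rw [h0, mul_zero] at hA3
    have : 0 < (w + 1) ^ D * B.card := Nat.mul_pos (by positivity) (card_pos.2 hB3)
    omega
  refine ⟨A, hA1, hA2, hAne, ?_⟩
  have hT' : Real.logb 2 (R' : ℝ) ≤ (2 / α + η) * X ^ m := by
    have h1 : (R' : ℝ) ≤ 2 * ((α + η) * X) * ((2 : ℝ) ^ (T / D)) ^ 2 := by
      rw [hR'def]
      push_cast
      have h2 : (1 : ℝ) ≤ (D : ℝ) * (M : ℝ) ^ 2 := by
        have hD1 : 1 ≤ D := by
          have : (0 : ℝ) < D := hDpos
          exact_mod_cast this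
        have hM' : (1 : ℝ) ≤ (M : ℝ) := by exact_mod_cast hM1
        exact one_le_mul_of_one_le_of_one_le (by exact_mod_cast hD1) (one_le_pow₀ hM')
      have h3 : (D : ℝ) * (M : ℝ) ^ 2 ≤ ((α + η) * X) * ((2 : ℝ) ^ (T / D)) ^ 2 :=
        mul_le_mul hDhi (pow_le_pow_left₀ (by positivity) hMhi 2) (by positivity) (by positivity)
      linarith
    refine le_trans (Real.logb_le_logb_of_le (by norm_num) (by positivity) h1) ?_
    rw [Real.logb_mul (by positivity) (by positivity), Real.logb_pow,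
      Real.logb_rpow (by norm_num) (by norm_num)]
    have := mul_le_mul_of_nonneg_left hXm hη.le
    push_cast
    have e1 : (2 / α + η) * X ^ m = 2 * (X ^ m / α) + η * X ^ m := by ring
    rw [e1]
    linarith
  have hT'0 : 0 ≤ Real.logb 2 (R' : ℝ) :=
    Real.logb_nonneg (by norm_num) (by exact_mod_cast (show 1 ≤ R' by omega))
  have hroot : Real.logb 2 (R' : ℝ) ^ ((1 : ℝ) / m) ≤ (2 / α + η) ^ ((1 : ℝ) / m) * X := by
    refine le_trans (Real.rpow_le_rpow hT'0 hT' hm0) (le_of_eq ?_)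
    rw [Real.mul_rpow (by positivity) (by positivity), one_div,
      Real.pow_rpow_inv_natCast hXn (by omega)]
  have hw3 : (T / D - η - e) ≤ Real.logb 2 ((w : ℝ) + 1) := by
    have h1 : (2 : ℝ) ^ (T / D - η) ≤ (2 : ℝ) ^ e * ((w : ℝ) + 1) :=
      le_trans hMlo (by exact_mod_cast hw2)
    have h2 := Real.logb_le_logb_of_le (b := 2) (by norm_num) (by positivity) h1
    rw [Real.logb_rpow (by norm_num) (by norm_num), Real.logb_mul (by positivity) (by positivity),
      Real.logb_pow, Real.logb_self_eq_one (by norm_num), mul_one] at h2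
    linarith
  have hmain : (D : ℝ) * Real.logb 2 ((w : ℝ) + 1) + Real.logb 2 (B.card : ℝ)
      ≤ 1 + Real.logb 2 (R' : ℝ) + Real.logb 2 (A.card : ℝ) := by
    have hBpos : (0 : ℝ) < B.card := by exact_mod_cast card_pos.2 hB3
    have hApos : (0 : ℝ) < A.card := by exact_mod_cast card_pos.2 hAne
    have hR'pos : (0 : ℝ) < R' := by exact_mod_cast (show 0 < R' by omega)
    have h1 : ((w : ℝ) + 1) ^ D * B.card ≤ 2 * (R' : ℝ) * A.card := by exact_mod_cast hA3
    have h2 := Real.logb_le_logb_of_le (b := 2) (by norm_num) (by positivity) h1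
    rw [Real.logb_mul (by positivity) hBpos.ne', Real.logb_pow,
      Real.logb_mul (by positivity) hApos.ne', Real.logb_mul (by norm_num) hR'pos.ne',
      Real.logb_self_eq_one (by norm_num)] at h2
    linarith
  have hDw := mul_le_mul_of_nonneg_left hw3 hDpos.le
  have hDT : (D : ℝ) * (T / D) = T := mul_div_cancel₀ _ hDpos.ne'
  have hKr := mul_le_mul_of_nonneg_left hroot (by linarith : 0 ≤ K + η)
  have hDe := mul_le_mul_of_nonneg_left hDhi (by positivity : 0 ≤ (e : ℝ) + η)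
  have hsum : (((e : ℝ) + η) * (α + η) + (K + η) * (2 / α + η) ^ ((1 : ℝ) / m) + η) * X
      ≤ K' * X := mul_le_mul_of_nonneg_right hηK.le hXn
  have hηX : 0 ≤ η * X := by positivity
  have hC := le_trans (add_le_add le_rfl (le_max_left C₀ 0))
    (le_max_left (1 + max C₀ 0) (max X₀ 1 ^ (m + 1)))
  rw [mul_sub, mul_sub, hDT] at hDw
  linarith

end Vale.Agent.P057
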