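import Vale.Agent.P057.Layer

/-!
The improved lower bound for `r_k(N)`: iterating the layers above the random-deletion base.
-/

namespace Vale.Agent.P057

open Finset Filter

/-- `A` contains `a, a + d, ..., a + (k-1) d` for some `d > 0`. -/
def HasAP (k : ℕ) (A : Finset ℕ) : Prop :=
  ∃ a d : ℕ, 0 < d ∧ ∀ j < k, a + j * d ∈ A

open Classical in
/-- `r k N` is the largest cardinality of a subset of `{1, ..., N}` with no `k`-term progression. -/
noncomputable def r (k N : ℕ) : ℕ :=
  ((Icc 1 N).powerset.filter fun A => ¬ HasAP k A).sup card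

lemma exists_apFree_le_r {k N : ℕ} (hk : 2 ≤ k) (A : Finset ℤ)
    (hA : ∀ x ∈ A, 0 ≤ x ∧ x < (N : ℤ)) (hF : PolyFree k 1 A) : A.card ≤ r k N := by
  classical
  set A' : Finset ℕ := A.image fun x => x.toNat + 1 with hA'
  have hcard : A'.card = A.card := card_image_of_injOn fun x hx y hy h => by
    have := hA x hx; have := hA y hy
    omega
  rw [← hcard]
  refine le_sup (f := card) (mem_filter.2 ⟨mem_powerset.2 fun n hn => ?_, ?_⟩)
  · obtain ⟨x, hx, rfl⟩ := mem_image.1 hn
    have := hA x hx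
    rw [mem_Icc]
    omega
  · rintro ⟨a, d, hd, h⟩
    have hseq : ∀ j < k, ((a : ℤ) - 1 + j * d) ∈ A := fun j hj => by
      obtain ⟨x, hx, hxe⟩ := mem_image.1 (h j hj)
      have := hA x hx
      have h2 : ((x.toNat : ℤ)) + 1 = (a : ℤ) + j * d := by exact_mod_cast hxe
      rw [Int.toNat_of_nonneg this.1] at h2
      have e : (a : ℤ) - 1 + j * d = x := by linarith
      rwa [e]
    have := hF (fun j => (a : ℤ) - 1 + j * d) hseq
      ⟨Polynomial.C ((a : ℚ) - 1) + Polynomial.C (d : ℚ) * Polynomial.X,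
        (Polynomial.natDegree_add_le _ _).trans (by
          rw [Polynomial.natDegree_C, Nat.zero_max]
          exact (Polynomial.natDegree_C_mul_le _ _).trans Polynomial.natDegree_X_le),
        fun j _ => by
          simp only [Polynomial.eval_add, Polynomial.eval_mul, Polynomial.eval_C,
            Polynomial.eval_X]
          push_cast
          ring⟩ 1 (by omega)
    simp only [Nat.cast_one, one_mul, Nat.cast_zero, zero_mul, add_zero] at this
    omega

/-- The exponent `(m-1)(2n-m)/2` appearing in the `m`-th layer. -/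
noncomputable def layerExp (n m : ℕ) : ℝ := ((m : ℝ) - 1) * (2 * n - m) / 2

/-- The constant `(c 2^(layerExp))^(1/m)` of the `m`-th layer. -/
noncomputable def layerBeta (n : ℕ) (c : ℝ) (m : ℕ) : ℝ :=
  (c * (2 : ℝ) ^ layerExp n m) ^ ((1 : ℝ) / m)

lemma layerBeta_pow {n m : ℕ} {c : ℝ} (hc : 0 ≤ c) (hm : m ≠ 0) :
    layerBeta n c m ^ m = c * (2 : ℝ) ^ layerExp n m := by
  rw [layerBeta, one_div, Real.rpow_inv_natCast_pow (by positivity) hm]

theorem sizeBound_iterate {k n : ℕ} {c : ℝ} (hc : 0 < c) (hk : 2 ^ (n - 1) < k)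
    (hbase : SizeBound k (2 ^ (n - 1)) c 1) :
    ∀ m, 1 ≤ m → m ≤ n → SizeBound k (2 ^ (n - m)) (m * layerBeta n c m) m := by
  intro m hm
  induction m, hm using Nat.le_induction with
  | base =>
    intro _
    have : layerBeta n c 1 = c := by
      simp [layerBeta, layerExp]
    simpa [this] using hbase
  | succ m hm ih =>
    intro hmn
    have ih' := ih (by omega)
    set e : ℕ := 2 ^ (n - (m + 1)) with he
    have h2e : 2 ^ (n - m) = 2 * e := by
      rw [he, ← pow_succ']; congr 1; omega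
    have hek : 2 * e < k := by
      refine lt_of_le_of_lt ?_ hk
      rw [← h2e]
      exact Nat.pow_le_pow_right (by norm_num) (by omega)
    rw [h2e] at ih'
    set b := layerBeta n c m with hb
    set b' := layerBeta n c (m + 1) with hb'
    have hb0 : 0 < b := by rw [hb, layerBeta]; positivity
    have hb'0 : 0 < b' := by rw [hb', layerBeta]; positivity
    have heR : (0 : ℝ) < e := by
      have : 0 < e := by rw [he]; positivity
      exact_mod_cast this
    have key : b ^ m * (2 * (e : ℝ)) = b' ^ (m + 1) := by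
      rw [hb, hb', layerBeta_pow hc.le (by omega), layerBeta_pow hc.le (by omega),
        show (2 * (e : ℝ)) = (2 : ℝ) ^ ((n : ℝ) - m) by
          rw [← Nat.cast_sub (by omega : m ≤ n), Real.rpow_natCast]
          exact_mod_cast h2e.symm,
        mul_assoc, ← Real.rpow_add (by norm_num)]
      congr 2
      simp only [layerExp]
      push_cast
      ring
    have hstep := sizeBound_step (α := b' / e) hek hm (by positivity) (by positivity) ih'
    have hK : (e : ℝ) * (b' / e) + m * b * (2 / (b' / e)) ^ ((1 : ℝ) / m)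
        = ((m + 1 : ℕ) : ℝ) * b' := by
      have h1 : b * (2 / (b' / e)) ^ ((1 : ℝ) / m) = b' := by
        rw [← pow_left_inj₀ (by positivity) hb'0.le (by omega : m ≠ 0), mul_pow, one_div,
          Real.rpow_inv_natCast_pow (by positivity) (by omega)]
        field_simp
        rw [pow_succ'] at key
        linarith
      rw [mul_assoc, h1, mul_div_cancel₀ _ heR.ne']
      push_cast
      ring
    rw [hK] at hstep
    exact hstep

theorem r_lower {k n q : ℕ} (hn : 1 ≤ n) (hq : q.Prime) (h1 : 2 ^ (n - 1) + 2 ≤ q) (h2 : q ≤ k)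
    {κ : ℝ} (hκ : (2 * 2 ^ (n - 1) / ((k : ℝ) + 2 ^ (n - 1))) ^ ((1 : ℝ) / n) < κ) :
    ∀ᶠ N : ℕ in atTop,
      (N : ℝ) * (2 : ℝ) ^
          (-(κ * n * (2 : ℝ) ^ (((n : ℝ) - 1) / 2) * Real.logb 2 N ^ ((1 : ℝ) / n))) ≤ r k N := by
  set e : ℕ := 2 ^ (n - 1) with he
  set c : ℝ := 2 * 2 ^ (n - 1) / ((k : ℝ) + 2 ^ (n - 1)) with hcdef
  have hek : e + 2 ≤ k := le_trans h1 h2
  have hk2 : 2 ≤ k := le_trans (Nat.le_add_left 2 e) hek
  have hec : c = 2 * (e : ℝ) / (k + e) := by rw [hcdef, he]; push_cast; rfl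
  have he0 : (0 : ℝ) < e := by
    have : 0 < e := by rw [he]; positivity
    exact_mod_cast this
  have hk0 : (0 : ℝ) < k := by exact_mod_cast (show 0 < k by omega)
  have hkpos : (0 : ℝ) < k + e := by linarith
  have hc0 : 0 < c := by rw [hec]; positivity
  have hbase : SizeBound k e c 1 := by
    refine sizeBound_base hq h1 h2 hc0.le fun r hr hrk => ?_
    rw [hec, div_mul_eq_mul_div, le_div_iff₀ hkpos]
    rcases le_total (r * k) (r * e + 2 * k) with h | h
    · have h' : (r : ℝ) * k ≤ r * e + 2 * k := by exact_mod_cast h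
      have hle : ((min (r - 1) (e * r / k + 1) : ℕ) : ℝ) - 1 ≤ (r : ℝ) - 2 := by
        have : ((min (r - 1) (e * r / k + 1) : ℕ) : ℝ) ≤ ((r - 1 : ℕ) : ℝ) := by
          exact_mod_cast min_le_left _ _
        rw [Nat.cast_sub (by omega : 1 ≤ r), Nat.cast_one] at this
        linarith
      have := mul_le_mul_of_nonneg_right hle hkpos.le
      linarith
    · have h' : (r : ℝ) * e + 2 * k ≤ r * k := by exact_mod_cast h
      have hle : ((min (r - 1) (e * r / k + 1) : ℕ) : ℝ) - 1 ≤ ((e : ℝ) * r) / k := by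
        have h3 : ((min (r - 1) (e * r / k + 1) : ℕ) : ℝ) ≤ ((e * r / k + 1 : ℕ) : ℝ) := by
          exact_mod_cast min_le_right _ _
        have h4 : (((e * r / k : ℕ)) : ℝ) ≤ ((e * r : ℕ) : ℝ) / k := Nat.cast_div_le
        rw [Nat.cast_add, Nat.cast_one] at h3
        rw [Nat.cast_mul] at h4
        linarith
      refine le_trans (mul_le_mul_of_nonneg_right hle hkpos.le) ?_
      rw [div_mul_eq_mul_div, div_le_iff₀ hk0]
      have := mul_le_mul_of_nonneg_left h' he0.le
      linarith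
  have hb := sizeBound_iterate hc0 (show 2 ^ (n - 1) < k from lt_of_lt_of_le (Nat.lt_add_of_pos_right (by norm_num)) hek) hbase n hn le_rfl
  rw [Nat.sub_self, pow_zero] at hb
  have hbeta : layerBeta n c n = c ^ ((1 : ℝ) / n) * (2 : ℝ) ^ (((n : ℝ) - 1) / 2) := by
    rw [layerBeta, Real.mul_rpow hc0.le (by positivity), ← Real.rpow_mul (by norm_num)]
    congr 2
    simp only [layerExp]
    field_simp
    ring
  have hn0 : (0 : ℝ) < n := by exact_mod_cast hn
  set Q : ℝ := (2 : ℝ) ^ (((n : ℝ) - 1) / 2) with hQ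
  have hQ0 : 0 < Q := by positivity
  set κ₁ : ℝ := (c ^ ((1 : ℝ) / n) + κ) / 2 with hκ₁
  have hlt : (n : ℝ) * layerBeta n c n < κ₁ * n * Q := by
    rw [hbeta, ← mul_assoc, mul_comm (n : ℝ) (c ^ _)]
    exact mul_lt_mul_of_pos_right
      (mul_lt_mul_of_pos_right (by rw [hκ₁]; linarith) hn0) hQ0
  obtain ⟨C, hC⟩ := hb _ hlt
  have hgap : 0 < (κ - κ₁) * n * Q := by
    have : 0 < κ - κ₁ := by rw [hκ₁]; linarith
    positivity
  have hT : Tendsto (fun N : ℕ => Real.logb 2 (N : ℝ) ^ ((1 : ℝ) / n)) atTop atTop :=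
    (tendsto_rpow_atTop (by positivity)).comp
      ((Real.tendsto_logb_atTop (by norm_num)).comp tendsto_natCast_atTop_atTop)
  filter_upwards [(hT.const_mul_atTop hgap).eventually_ge_atTop C, eventually_ge_atTop 1] with N hN hN1
  obtain ⟨A, hA1, hA2, hA3, hA4⟩ := hC N hN1
  have hcard := exists_apFree_le_r hk2 A hA1 hA2
  have hApos : (0 : ℝ) < A.card := by exact_mod_cast card_pos.2 hA3
  have hNpos : (0 : ℝ) < N := by exact_mod_cast hN1
  refine le_trans ?_ (show (A.card : ℝ) ≤ r k N by exact_mod_cast hcard)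
  rw [← Real.logb_le_logb (by norm_num : (1 : ℝ) < 2) (by positivity) hApos,
    Real.logb_mul hNpos.ne' (by positivity), Real.logb_rpow (by norm_num) (by norm_num)]
  linarith

lemma exists_prime_gap {n : ℕ} (hn : 3 ≤ n) :
    ∃ q : ℕ, q.Prime ∧ 2 ^ (n - 1) + 2 ≤ q ∧ q ≤ 2 ^ n := by
  set e := 2 ^ (n - 1) with he
  have h2e : 2 ^ n = 2 * e := by rw [he, ← pow_succ']; congr 1; omega
  have he0 : e ≠ 0 := by positivity
  by_cases hp : (e + 1).Prime
  · obtain ⟨q, hq, hlt, hle⟩ := Nat.exists_prime_lt_and_le_two_mul (e + 1) (by omega)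
    refine ⟨q, hq, by omega, ?_⟩
    by_contra hgt
    rcases eq_or_ne q (2 * e + 1) with hq1 | hq1
    · obtain ⟨a, ha⟩ := Nat.pow_of_pow_add_prime (a := 2) (n := n - 1) (by norm_num) (by omega)
        (by rw [← he]; exact hp)
      obtain ⟨b, hb⟩ := Nat.pow_of_pow_add_prime (a := 2) (n := n) (by norm_num) (by omega)
        (by rw [h2e, ← hq1]; exact hq)
      rcases a with _ | a
      · simp at ha; omega
      rcases b with _ | b
      · simp at hb; omega
      rw [pow_succ] at ha hb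
      omega
    · have hq2 : q = 2 * e + 2 := by omega
      have := hq.eq_two_or_odd
      omega
  · obtain ⟨q, hq, hlt, hle⟩ := Nat.exists_prime_lt_and_le_two_mul e he0
    refine ⟨q, hq, ?_, by omega⟩
    rcases eq_or_ne q (e + 1) with h | h
    · exact absurd (h ▸ hq) hp
    · omega

theorem r_two_pow_lower {n : ℕ} (hn : 3 ≤ n) {κ : ℝ} (hκ : (2 / 3 : ℝ) ^ ((1 : ℝ) / n) < κ) :
    ∀ᶠ N : ℕ in atTop,
      (N : ℝ) * (2 : ℝ) ^
          (-(κ * n * (2 : ℝ) ^ (((n : ℝ) - 1) / 2) * Real.logb 2 N ^ ((1 : ℝ) / n)))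
        ≤ r (2 ^ n) N := by
  obtain ⟨q, hq, h1, h2⟩ := exists_prime_gap hn
  refine r_lower (by omega) hq h1 h2 ?_
  refine lt_of_eq_of_lt ?_ hκ
  congr 1
  rw [show ((2 ^ n : ℕ) : ℝ) = 2 * 2 ^ (n - 1) by
    push_cast; rw [← pow_succ']; congr 1; omega]
  have : (0 : ℝ) < 2 ^ (n - 1) := by positivity
  field_simp
  ring

end Vale.Agent.P057
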