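import Mathlib

/-!
Finite sequences that agree with a polynomial of bounded degree, and a digit lifting lemma.
-/

namespace Vale.Agent.P057

open Finset Polynomial

/-- `a 0, ..., a (k-1)` are the values at `0, ..., k-1` of a rational polynomial of degree `≤ e`. -/
def IsPolySeq (k e : ℕ) (a : ℕ → ℤ) : Prop :=
  ∃ P : ℚ[X], P.natDegree ≤ e ∧ ∀ j < k, P.eval (j : ℚ) = (a j : ℚ)

/-- Every such sequence inside `A` is constant. -/
def PolyFree (k e : ℕ) (A : Finset ℤ) : Prop :=
  ∀ a : ℕ → ℤ, (∀ j < k, a j ∈ A) → IsPolySeq k e a → ∀ j < k, a j = a 0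

/-- The alternating binomial sum of order `e + 1` starting at `s`. -/
def diffSum (e : ℕ) (a : ℕ → ℤ) (s : ℕ) : ℤ :=
  ∑ i ∈ range (e + 2), (-1 : ℤ) ^ (e + 1 - i) * ((e + 1).choose i : ℤ) * a (s + i)

lemma eval_alt_sum {P : ℚ[X]} {m : ℕ} (h : P.natDegree < m) (x : ℚ) :
    ∑ i ∈ range (m + 1), ((-1 : ℚ) ^ (m - i) * (m.choose i : ℚ)) * P.eval (x + i) = 0 := by
  have h1 := congr_fun (Polynomial.fwdDiff_iter_eq_zero_of_degree_lt h) x
  rw [fwdDiff_iter_eq_sum_shift] at h1
  simpa [zsmul_eq_mul] using h1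

lemma IsPolySeq.diffSum_eq_zero {k e : ℕ} {a : ℕ → ℤ} (h : IsPolySeq k e a) {s : ℕ}
    (hs : s + e + 1 < k) : diffSum e a s = 0 := by
  obtain ⟨P, hd, hP⟩ := h
  have h1 := eval_alt_sum (P := P) (m := e + 1) (by omega) (s : ℚ)
  have h2 : (diffSum e a s : ℚ) = 0 := by
    rw [diffSum]
    push_cast
    rw [← h1]
    refine sum_congr rfl fun i hi => ?_
    have hi' : i < e + 2 := mem_range.1 hi
    rw [← hP (s + i) (by omega)]
    push_cast
    ring
  exact_mod_cast h2

lemma isPolySeq_of_diffSum {k e : ℕ} {a : ℕ → ℤ}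
    (h : ∀ s, s + e + 1 < k → diffSum e a s = 0) : IsPolySeq k e a := by
  classical
  have hinj : Set.InjOn (fun i : ℕ => (i : ℚ)) (range (e + 1) : Finset ℕ) :=
    fun x _ y _ hxy => by simpa using hxy
  set P : ℚ[X] := Lagrange.interpolate (range (e + 1)) (fun i : ℕ => (i : ℚ))
    (fun i => (a i : ℚ)) with hPdef
  have hdeg : P.natDegree ≤ e := by
    have h1 := Lagrange.degree_interpolate_le (s := range (e + 1))
      (v := fun i : ℕ => (i : ℚ)) (r := fun i => (a i : ℚ)) hinj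
    rw [card_range, Nat.add_sub_cancel] at h1
    exact natDegree_le_iff_degree_le.2 h1
  refine ⟨P, hdeg, fun j => ?_⟩
  induction j using Nat.strong_induction_on with
  | _ j ih =>
    intro hj
    by_cases hje : j < e + 1
    · exact Lagrange.eval_interpolate_at_node (s := range (e + 1))
        (v := fun i : ℕ => (i : ℚ)) (r := fun i => (a i : ℚ)) hinj (mem_range.2 hje)
    obtain ⟨s, rfl⟩ : ∃ s, j = s + (e + 1) := ⟨j - (e + 1), by omega⟩
    have h1 := eval_alt_sum (P := P) (m := e + 1) (by omega) (s : ℚ)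
    have h2 : (diffSum e a s : ℚ) = 0 := by exact_mod_cast h s (by omega)
    rw [diffSum] at h2
    push_cast at h2
    rw [sum_range_succ] at h1 h2
    have h3 : ∑ i ∈ range (e + 1), ((-1 : ℚ) ^ (e + 1 - i) * ((e + 1).choose i : ℚ)) *
          P.eval ((s : ℚ) + i)
        = ∑ i ∈ range (e + 1), (-1 : ℚ) ^ (e + 1 - i) * ((e + 1).choose i : ℚ) *
          (a (s + i) : ℚ) := by
      refine sum_congr rfl fun i hi => ?_
      have hi' : i < e + 1 := mem_range.1 hi
      rw [← ih (s + i) (by omega) (by omega)]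
      push_cast
      ring
    simp only [Nat.sub_self, pow_zero, Nat.choose_self, Nat.cast_one, one_mul] at h1 h2
    push_cast at h1 ⊢
    linarith

/-- The order `e + 1` differences of a sequence in `[0, w]` are at most `2^e w` in size. -/
lemma abs_diffSum_le {e : ℕ} {y : ℕ → ℤ} {w : ℤ} {s : ℕ}
    (h : ∀ i ≤ e + 1, 0 ≤ y (s + i) ∧ y (s + i) ≤ w) : |diffSum e y s| ≤ 2 ^ e * w := by
  have hz : ∑ i ∈ range (e + 2), (-1 : ℤ) ^ (e + 1 - i) * ((e + 1).choose i : ℤ) = 0 := by
    have h0 := add_pow (1 : ℤ) (-1) (e + 1)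
    simp at h0
    exact h0.symm
  have key : 2 * diffSum e y s =
      ∑ i ∈ range (e + 2), (-1 : ℤ) ^ (e + 1 - i) * ((e + 1).choose i : ℤ) *
        (2 * y (s + i) - w) := by
    simp only [diffSum, mul_sub, sum_sub_distrib, ← sum_mul, hz, zero_mul, sub_zero, mul_sum]
    exact sum_congr rfl fun i _ => by ring
  have hb : |2 * diffSum e y s| ≤ 2 ^ (e + 1) * w := by
    rw [key]
    refine le_trans (abs_sum_le_sum_abs _ _) ?_
    have hsum : ∑ i ∈ range (e + 2), ((e + 1).choose i : ℤ) = 2 ^ (e + 1) := by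
      exact_mod_cast Nat.sum_range_choose (e + 1)
    rw [← hsum, sum_mul]
    refine sum_le_sum fun i hi => ?_
    have hy := h i (by have := mem_range.1 hi; omega)
    rw [abs_mul, abs_mul, abs_pow, abs_neg, abs_one, one_pow, one_mul, Nat.abs_cast]
    exact mul_le_mul_of_nonneg_left (abs_le.2 ⟨by linarith, by linarith⟩) (by positivity)
  rw [abs_mul, abs_two, pow_succ] at hb
  linarith

lemma digits_zero {M : ℤ} (hM : 0 < M) :
    ∀ (D : ℕ) (z : Fin D → ℤ), (∀ i, |z i| < M) → ∑ i, z i * M ^ (i : ℕ) = 0 → ∀ i, z i = 0 := by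
  intro D
  induction D with
  | zero => exact fun z _ _ i => i.elim0
  | succ D ih =>
    intro z hz h
    rw [Fin.sum_univ_succ] at h
    simp only [Fin.val_zero, pow_zero, mul_one, Fin.val_succ, pow_succ] at h
    have h' : z 0 + M * ∑ i : Fin D, z i.succ * M ^ (i : ℕ) = 0 := by
      rw [mul_sum, ← h]
      congr 1
      exact sum_congr rfl fun i _ => by ring
    have hdvd : M ∣ z 0 := ⟨-∑ i : Fin D, z i.succ * M ^ (i : ℕ), by linarith⟩
    have hz0 : z 0 = 0 := Int.eq_zero_of_abs_lt_dvd hdvd (hz 0)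
    rw [hz0, zero_add, mul_eq_zero] at h'
    have h'' := ih (fun i => z i.succ) (fun i => hz i.succ) (h'.resolve_left hM.ne')
    exact fun i => Fin.cases hz0 h'' i

/-- The integer with digit vector `y` in base `M`. -/
def ofDigitsVec {D : ℕ} (M : ℤ) (y : Fin D → ℕ) : ℤ := ∑ i, (y i : ℤ) * M ^ (i : ℕ)

/-- If digits are small, each digit of a polynomial sequence is a polynomial sequence. -/
lemma digit_isPolySeq {k e D w : ℕ} {M : ℤ} (hM : (2 : ℤ) ^ e * w < M)
    (y : ℕ → Fin D → ℕ) (hy : ∀ j < k, ∀ i, y j i ≤ w)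
    (h : IsPolySeq k e (fun j => ofDigitsVec M (y j))) (i : Fin D) :
    IsPolySeq k e (fun j => (y j i : ℤ)) := by
  refine isPolySeq_of_diffSum fun s hs => ?_
  have hM0 : 0 < M := lt_of_le_of_lt (by positivity) hM
  refine digits_zero hM0 D (fun i => diffSum e (fun j => (y j i : ℤ)) s) (fun i => ?_) ?_ i
  · refine lt_of_le_of_lt (abs_diffSum_le (w := (w : ℤ)) fun l hl => ⟨by positivity, ?_⟩) hM
    exact_mod_cast hy (s + l) (by omega) i
  · have h0 := h.diffSum_eq_zero hs
    simp only [diffSum, ofDigitsVec, mul_sum] at h0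
    rw [sum_comm] at h0
    simp only [diffSum, sum_mul]
    rw [← h0]
    exact sum_congr rfl fun i _ => sum_congr rfl fun l _ => by ring

lemma ofDigitsVec_injective {D : ℕ} {M w : ℕ} (hw : w < M) (y y' : Fin D → ℕ)
    (hy : ∀ i, y i ≤ w) (hy' : ∀ i, y' i ≤ w)
    (h : ofDigitsVec (M : ℤ) y = ofDigitsVec (M : ℤ) y') : y = y' := by
  funext i
  have hM : (0 : ℤ) < M := by omega
  have := digits_zero hM D (fun i => (y i : ℤ) - y' i) (fun i => by
    have := hy i; have := hy' i
    exact abs_lt.2 ⟨by omega, by omega⟩) (by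
    simp only [sub_mul, sum_sub_distrib]
    exact sub_eq_zero.2 h) i
  omega

/-- If the sum of squares of `D` polynomial sequences of degree `≤ e` is constant on `k > 2e`
points, then each of them is constant. -/
lemma const_of_sumSq_const {k e D : ℕ} (hk : 2 * e < k) (y : Fin D → ℕ → ℤ)
    (hp : ∀ i, IsPolySeq k e (y i)) (hc : ∀ j < k, ∑ i, y i j ^ 2 = ∑ i, y i 0 ^ 2)
    (i : Fin D) {j : ℕ} (hj : j < k) : y i j = y i 0 := by
  choose P hd hP using hp
  set v : ℤ := ∑ i, y i 0 ^ 2 with hv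
  have h0 : (∑ i, P i ^ 2) - C (v : ℚ) = 0 := by
    refine eq_zero_of_natDegree_lt_card_of_eval_eq_zero _
      (f := fun l : Fin k => ((l : ℕ) : ℚ)) (fun a b hab => by
        simpa [Fin.val_inj] using hab) (fun l => ?_) ?_
    · simp only [eval_sub, eval_finsetSum, eval_pow, eval_C, hP _ _ l.2]
      rw [← sub_eq_zero.2 (congrArg (fun z : ℤ => (z : ℚ)) (hc l l.2))]
      push_cast
      ring
    · rw [Fintype.card_fin]
      refine lt_of_le_of_lt ?_ hk
      rw [natDegree_sub_C]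
      exact natDegree_sum_le_of_forall_le _ _ fun i _ => natDegree_pow_le.trans (by
        have := hd i; omega)
  have hbd : ∀ x : ℚ, |(P i).eval x| ≤ (v : ℚ) + 1 := by
    intro x
    have h1 : ((∑ i, P i ^ 2) - C (v : ℚ)).eval x = 0 := by rw [h0, eval_zero]
    simp only [eval_sub, eval_finsetSum, eval_pow, eval_C] at h1
    have h2 : (P i).eval x ^ 2 ≤ ∑ i, (P i).eval x ^ 2 :=
      single_le_sum (f := fun i => (P i).eval x ^ 2) (fun _ _ => sq_nonneg _) (mem_univ i)
    exact abs_le.2 ⟨by nlinarith [sq_nonneg ((P i).eval x + 1)],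
      by nlinarith [sq_nonneg ((P i).eval x - 1)]⟩
  have hconst : (P i).degree ≤ 0 :=
    (isBoundedUnder_abs_atTop_iff _).1 ⟨(v : ℚ) + 1, Filter.eventually_map.2
      (Filter.Eventually.of_forall hbd)⟩
  have hC := eq_C_of_degree_le_zero hconst
  have a1 := hP i j hj
  have a2 := hP i 0 (by omega)
  rw [hC, eval_C] at a1 a2
  exact_mod_cast a1.symm.trans a2

end Vale.Agent.P057
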